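import Vale.Agent.P347.Quarter.Gauss
import Vale.Agent.P347.Quarter.Smooth

/-! # P347: elementary facts for the mean of the gradient at the evaluation point -/

open MeasureTheory ProbabilityTheory Real
open scoped RealInnerProductSpace Topology

namespace Vale.Agent.P347.Quarter.MeanPt

variable {d N : ℕ} {W : Sp d → ℝ} {G : Sp d → Sp d} {H : Sp d → Sp d →L[ℝ] Sp d} {η : ℝ}

/-- Continuous functions of linear growth are integrable against any law with a first moment. -/
theorem integrable_lin {X E : Type*} [MeasurableSpace X] [TopologicalSpace X]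
    [OpensMeasurableSpace X] [NormedAddCommGroup E] [SecondCountableTopologyEither X E]
    {μ : Measure X} [IsFiniteMeasure μ] {f : X → E} {g : X → ℝ} (hf : Continuous f)
    (hg : Integrable g μ) {a b : ℝ} (h : ∀ x, ‖f x‖ ≤ a + b * g x) : Integrable f μ :=
  ((integrable_const a).add (hg.const_mul b)).mono' hf.aestronglyMeasurable (ae_of_all _ h)

theorem integral_norm_le : ∫ x, ‖x‖ ∂gd d ≤ √(d : ℝ) := by
  have h := integral_norm_sq (ι := Fin d)
  refine Real.le_sqrt_of_sq_le ?_
  have hv : 0 ≤ ∫ x, (‖x‖ - ∫ y, ‖y‖ ∂gd d) ^ 2 ∂gd d := integral_nonneg fun x => sq_nonneg _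
  set c := ∫ y : Sp d, ‖y‖ ∂gd d with hc
  have e : (fun x : Sp d => (‖x‖ - c) ^ 2) = fun x => ‖x‖ ^ 2 + (-2 * c * ‖x‖ + c ^ 2) :=
    funext fun x => by ring
  have i2 : Integrable (fun x : Sp d => -2 * c * ‖x‖ + c ^ 2) (gd d) :=
    (integrable_norm_gd.const_mul _).add (integrable_const _)
  rw [e, integral_add h.1 i2, integral_add (integrable_norm_gd.const_mul _) (integrable_const _),
    integral_const_mul, integral_const, probReal_univ, one_smul, h.2, ← hc, Fintype.card_fin] at hv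
  linarith

/-- Cauchy–Schwarz for expectations. -/
theorem sq_integral_le {X : Type*} [MeasurableSpace X] {μ : Measure X} [IsProbabilityMeasure μ]
    {f : X → ℝ} (hf : Integrable f μ) (h2 : Integrable (fun x => f x ^ 2) μ) :
    (∫ x, f x ∂μ) ^ 2 ≤ ∫ x, f x ^ 2 ∂μ := by
  set c := ∫ x, f x ∂μ with hc
  have hv : 0 ≤ ∫ x, (f x - c) ^ 2 ∂μ := integral_nonneg fun x => sq_nonneg _
  have e : (fun x => (f x - c) ^ 2) = fun x => f x ^ 2 + (-2 * c * f x + c ^ 2) :=
    funext fun x => by ring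
  have i2 : Integrable (fun x => -2 * c * f x + c ^ 2) μ :=
    (hf.const_mul _).add (integrable_const _)
  rw [e, integral_add h2 i2, integral_add (hf.const_mul _) (integrable_const _),
    integral_const_mul, integral_const, probReal_univ, one_smul, ← hc] at hv
  linarith

section node

variable (w v : Fin N → ℝ)

theorem node_mem {v : ℝ} (h : 0 ≤ v ∧ v ≤ 1) : |v| ≤ 1 ∧ |√(1 - v ^ 2)| ≤ 1 := by
  refine ⟨abs_le.2 ⟨by linarith, h.2⟩, ?_⟩
  rw [abs_of_nonneg (sqrt_nonneg _), sqrt_le_one]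
  nlinarith

variable {w v} {C₀ : ℝ} (hW : IsPot W G H 0 η) (hη : 0 ≤ η) (hv : ∀ j, 0 ≤ v j ∧ v j ≤ 1)
  (hw : ∑ j, |w j| ≤ C₀)

include hW in
theorem continuous_qsamp : Continuous fun p : Sp d × Sp d => qsamp w v G p.1 p.2 := by
  have hG := hW.contDiff_grad.continuous
  unfold qsamp
  fun_prop

include hW hη hv hw

theorem qsamp_lip (x y z : Sp d) :
    ‖qsamp w v G x z - qsamp w v G y z‖ ≤ C₀ * η * ‖x - y‖ := by
  rw [qsamp, qsamp, ← Finset.sum_sub_distrib]
  refine (norm_sum_le _ _).trans ?_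
  have h : ∀ j, ‖w j • G (v j • x + √(1 - v j ^ 2) • z) -
      w j • G (v j • y + √(1 - v j ^ 2) • z)‖ ≤ |w j| * (η * ‖x - y‖) := fun j => by
    rw [← smul_sub, norm_smul, Real.norm_eq_abs]
    refine mul_le_mul_of_nonneg_left ((hW.norm_grad_sub hη _ _).trans ?_) (abs_nonneg _)
    refine mul_le_mul_of_nonneg_left ?_ hη
    rw [add_sub_add_right_eq_sub, ← smul_sub, norm_smul, Real.norm_eq_abs]
    exact mul_le_of_le_one_left (norm_nonneg _) (node_mem (hv j)).1
  refine (Finset.sum_le_sum fun j _ => h j).trans ?_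
  rw [← Finset.sum_mul, mul_assoc]
  exact mul_le_mul_of_nonneg_right hw (by positivity)

theorem qsamp_growth (x z : Sp d) :
    ‖qsamp w v G x z‖ ≤ C₀ * (‖G 0‖ + η * (‖x‖ + ‖z‖)) := by
  refine (norm_sum_le _ _).trans ?_
  have h : ∀ j, ‖w j • G (v j • x + √(1 - v j ^ 2) • z)‖ ≤
      |w j| * (‖G 0‖ + η * (‖x‖ + ‖z‖)) := fun j => by
    rw [norm_smul, Real.norm_eq_abs]
    refine mul_le_mul_of_nonneg_left ((hW.norm_grad_le hη _).trans ?_) (abs_nonneg _)
    refine add_le_add le_rfl (mul_le_mul_of_nonneg_left ((norm_add_le _ _).trans ?_) hη)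
    rw [norm_smul, norm_smul, Real.norm_eq_abs, Real.norm_eq_abs]
    exact add_le_add (mul_le_of_le_one_left (norm_nonneg _) (node_mem (hv j)).1)
      (mul_le_of_le_one_left (norm_nonneg _) (node_mem (hv j)).2)
  refine (Finset.sum_le_sum fun j _ => h j).trans ?_
  rw [← Finset.sum_mul]
  exact mul_le_mul_of_nonneg_right hw (by positivity)

theorem qsamp_smooth (x : Sp d) :
    ContDiff ℝ 1 (fun z => qsamp w v G x z) ∧
      ∀ z, ‖fderiv ℝ (fun z => qsamp w v G x z) z‖ ≤ C₀ * η := by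
  have hG := hW.contDiff_grad
  have hC : 0 ≤ C₀ := (Finset.sum_nonneg fun j _ => abs_nonneg (w j)).trans hw
  refine ⟨by unfold qsamp; fun_prop, fun z => ?_⟩
  refine norm_fderiv_le_of_lip' ℝ (mul_nonneg hC hη) (Filter.Eventually.of_forall fun y => ?_)
  rw [qsamp, qsamp, ← Finset.sum_sub_distrib]
  refine (norm_sum_le _ _).trans ?_
  have h : ∀ j, ‖w j • G (v j • x + √(1 - v j ^ 2) • y) -
      w j • G (v j • x + √(1 - v j ^ 2) • z)‖ ≤ |w j| * (η * ‖y - z‖) := fun j => by
    rw [← smul_sub, norm_smul, Real.norm_eq_abs]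
    refine mul_le_mul_of_nonneg_left ((hW.norm_grad_sub hη _ _).trans ?_) (abs_nonneg _)
    refine mul_le_mul_of_nonneg_left ?_ hη
    rw [add_sub_add_left_eq_sub, ← smul_sub, norm_smul, Real.norm_eq_abs]
    exact mul_le_of_le_one_left (norm_nonneg _) (node_mem (hv j)).2
  refine (Finset.sum_le_sum fun j _ => h j).trans ?_
  rw [← Finset.sum_mul, mul_assoc]
  exact mul_le_mul_of_nonneg_right hw (by positivity)

theorem integrable_qsamp (x : Sp d) : Integrable (fun z => qsamp w v G x z) (gd d) := by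
  have hc : Continuous fun z : Sp d => qsamp w v G x z :=
    (continuous_qsamp hW (w := w) (v := v)).comp (f := fun z : Sp d => (x, z))
      (Continuous.prodMk_right x)
  have hg : ∀ z : Sp d, ‖qsamp w v G x z‖ ≤ C₀ * (‖G 0‖ + η * ‖x‖) + C₀ * η * ‖z‖ := fun z =>
    (qsamp_growth hW hη hv hw x z).trans_eq (by ring)
  exact integrable_lin (X := Sp d) (E := Sp d) hc integrable_norm_gd hg

omit hw in
theorem qflow_eq (x : Sp d) : qflow w v G x = ∫ z, qsamp w v G x z ∂gd d := by
  simp only [qsamp, qflow, pv, smth]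
  rw [integral_finsetSum]
  · exact Finset.sum_congr rfl fun j _ => (integral_smul _ _).symm
  intro j _
  refine Integrable.smul (w j) ?_
  refine integrable_lin (hW.contDiff_grad.continuous.comp (by fun_prop)) integrable_norm_gd
    (a := ‖G 0‖ + η * ‖v j • x‖) (b := η) fun z => (hW.norm_grad_le hη _).trans ?_
  have h := norm_add_le (v j • x) (√(1 - v j ^ 2) • z)
  have h2 : ‖√(1 - v j ^ 2) • z‖ ≤ ‖z‖ := by
    rw [norm_smul, Real.norm_eq_abs]
    exact mul_le_of_le_one_left (norm_nonneg _) (node_mem (hv j)).2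
  nlinarith [mul_le_mul_of_nonneg_left (h.trans (add_le_add le_rfl h2)) hη]

theorem qflow_lip (x y : Sp d) :
    ‖qflow w v G x - qflow w v G y‖ ≤ C₀ * η * ‖x - y‖ := by
  rw [qflow_eq hW hη hv, qflow_eq hW hη hv,
    ← integral_sub (integrable_qsamp hW hη hv hw x) (integrable_qsamp hW hη hv hw y)]
  refine (norm_integral_le_of_norm_le_const (C := C₀ * η * ‖x - y‖)
    (ae_of_all _ fun z => qsamp_lip hW hη hv hw x y z)).trans ?_
  simp

theorem qflow_growth (x : Sp d) :
    ‖qflow w v G x‖ ≤ C₀ * (‖G 0‖ + η * (‖x‖ + √(d : ℝ))) := by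
  have hC : 0 ≤ C₀ := (Finset.sum_nonneg fun j _ => abs_nonneg (w j)).trans hw
  rw [qflow_eq hW hη hv]
  refine (norm_integral_le_integral_norm _).trans ?_
  refine (integral_mono (integrable_qsamp hW hη hv hw x).norm
    ((integrable_const (C₀ * (‖G 0‖ + η * ‖x‖))).add (integrable_norm_gd.const_mul (C₀ * η)))
    fun z => (qsamp_growth hW hη hv hw x z).trans_eq (by simp only [Pi.add_apply]; ring)).trans ?_
  rw [integral_add' (integrable_const _) (integrable_norm_gd.const_mul _), integral_const,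
    integral_const_mul, probReal_univ, one_smul]
  nlinarith [mul_le_mul_of_nonneg_left (integral_norm_le (d := d)) (mul_nonneg hC hη)]

theorem continuous_qflow : Continuous (qflow w v G) := by
  have hC : 0 ≤ C₀ := (Finset.sum_nonneg fun j _ => abs_nonneg (w j)).trans hw
  exact (LipschitzWith.of_dist_le_mul (K := ⟨C₀ * η, mul_nonneg hC hη⟩) fun x y => by
    rw [dist_eq_norm, dist_eq_norm]; exact qflow_lip hW hη hv hw x y).continuous

end node

end Vale.Agent.P347.Quarter.MeanPt
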