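import Vale.Agent.P347.Quarter.Gauss

/-! # P347: a centred random shift of a smooth function costs its second derivative -/

open MeasureTheory ProbabilityTheory Real
open scoped RealInnerProductSpace

namespace Vale.Agent.P347.Quarter.MeanPt

variable {d : ℕ}

/-- The operator norm is at most the Frobenius norm. -/
theorem opNorm_le_hs {E : Type*} [NormedAddCommGroup E] [InnerProductSpace ℝ E]
    (A : Sp d →L[ℝ] E) :
    ‖A‖ ≤ √(∑ i, ‖A ((EuclideanSpace.basisFun (Fin d) ℝ) i)‖ ^ 2) := by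
  set e := EuclideanSpace.basisFun (Fin d) ℝ with he
  refine ContinuousLinearMap.opNorm_le_bound _ (sqrt_nonneg _) fun x => ?_
  have hx : ∑ i, ‖⟪e i, x⟫‖ ^ 2 = ‖x‖ ^ 2 := e.sum_sq_norm_inner_right x
  calc ‖A x‖ = ‖∑ i, ⟪e i, x⟫ • A (e i)‖ := by
        conv_lhs => rw [← e.sum_repr' x]
        simp only [map_sum, map_smul]
    _ ≤ ∑ i, ‖⟪e i, x⟫‖ * ‖A (e i)‖ :=
        (norm_sum_le _ _).trans_eq (Finset.sum_congr rfl fun i _ => norm_smul _ _)
    _ ≤ √(∑ i, ‖⟪e i, x⟫‖ ^ 2) * √(∑ i, ‖A (e i)‖ ^ 2) := Real.sum_mul_le_sqrt_mul_sqrt _ _ _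
    _ = _ := by rw [hx, sqrt_sq (norm_nonneg x), mul_comm]

/-- Frobenius norm of a composition. -/
theorem hs_comp_le (A B : Sp d →L[ℝ] Sp d) :
    ∑ i, ‖A (B ((EuclideanSpace.basisFun (Fin d) ℝ) i))‖ ^ 2 ≤
      ‖B‖ ^ 2 * ∑ i, ‖A ((EuclideanSpace.basisFun (Fin d) ℝ) i)‖ ^ 2 := by
  set e := EuclideanSpace.basisFun (Fin d) ℝ with he
  have h : ∀ T : Sp d →L[ℝ] Sp d,
      ∑ i, ‖T (e i)‖ ^ 2 = ∑ k, ‖ContinuousLinearMap.adjoint T (e k)‖ ^ 2 := fun T => by
    simp_rw [← e.sum_sq_norm_inner_right (T (e _)),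
      ← e.sum_sq_norm_inner_right (ContinuousLinearMap.adjoint T (e _)),
      ContinuousLinearMap.adjoint_inner_right]
    rw [Finset.sum_comm]
    exact Finset.sum_congr rfl fun i _ => Finset.sum_congr rfl fun k _ => by rw [real_inner_comm]
  have h1 := h (A.comp B)
  simp only [ContinuousLinearMap.comp_apply] at h1
  rw [h1, h A, ContinuousLinearMap.adjoint_comp, Finset.mul_sum]
  refine Finset.sum_le_sum fun k _ => ?_
  rw [ContinuousLinearMap.comp_apply, ← mul_pow]
  refine pow_le_pow_left₀ (norm_nonneg _) (((ContinuousLinearMap.adjoint B).le_opNorm _).trans ?_) 2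
  rw [LinearIsometryEquiv.norm_map]

/-- Cauchy–Schwarz. -/
theorem integral_mul_le {X : Type*} [MeasurableSpace X] {μ : Measure X} {f g : X → ℝ}
    (hfg : Integrable (fun x => f x * g x) μ) (hf : Integrable (fun x => f x ^ 2) μ)
    (hg : Integrable (fun x => g x ^ 2) μ) :
    ∫ x, f x * g x ∂μ ≤ √(∫ x, f x ^ 2 ∂μ) * √(∫ x, g x ^ 2 ∂μ) := by
  have key : ∀ t : ℝ, 0 ≤ (∫ x, f x ^ 2 ∂μ) * (t * t) + (2 * ∫ x, f x * g x ∂μ) * t +
      ∫ x, g x ^ 2 ∂μ := fun t => by
    have e : (fun x => (t * f x + g x) ^ 2) =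
        fun x => (t * t * f x ^ 2 + 2 * t * (f x * g x)) + g x ^ 2 := funext fun x => by ring
    have h : 0 ≤ ∫ x, (t * f x + g x) ^ 2 ∂μ := integral_nonneg fun x => sq_nonneg _
    have i1 : Integrable (fun x => t * t * f x ^ 2 + 2 * t * (f x * g x)) μ :=
      (hf.const_mul _).add (hfg.const_mul _)
    rw [e, integral_add i1 hg, integral_add (hf.const_mul _) (hfg.const_mul _),
      integral_const_mul, integral_const_mul] at h
    linarith
  have hd := discrim_le_zero key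
  rw [discrim] at hd
  rw [← sqrt_mul (integral_nonneg fun x => sq_nonneg _)]
  exact Real.le_sqrt_of_sq_le (by nlinarith)

/-- A centred shift `n` moves the mean of `f` by second order only. -/
theorem noise {f : Sp d → ℝ} {F n : Sp d → Sp d} {K L M : ℝ} (hK : ∀ y, ‖F y‖ ≤ K)
    (hf : ∀ y, HasFDerivAt f (innerSL ℝ (F y)) y) (hF : ContDiff ℝ 1 F)
    (hM : ∀ y, ∑ i, ‖fderiv ℝ F y ((EuclideanSpace.basisFun (Fin d) ℝ) i)‖ ^ 2 ≤ M)
    (hn : ContDiff ℝ 1 n) (hL : ∀ z, ‖fderiv ℝ n z‖ ≤ L) (hn0 : ∫ z, n z ∂gd d = 0) (c : Sp d) :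
    |(∫ z, f (c - n z) ∂gd d) - f c| ≤ √M * L * (√(d : ℝ) * L) := by
  set e := EuclideanSpace.basisFun (Fin d) ℝ with he
  have hL0 : 0 ≤ L := (norm_nonneg _).trans (hL 0)
  have hM0 : 0 ≤ M := (Finset.sum_nonneg fun i _ => sq_nonneg _).trans (hM 0)
  have hK0 : 0 ≤ K := (norm_nonneg _).trans (hK 0)
  obtain ⟨hni, hn2, hnv⟩ := poincare_vec hn hL (M := (√(d : ℝ) * L) ^ 2) fun z => by
    refine (Finset.sum_le_sum (g := fun _ => L ^ 2) fun i _ =>
      pow_le_pow_left₀ (norm_nonneg _) ?_ 2).trans_eq (by simp [mul_pow])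
    refine ((fderiv ℝ n z).le_opNorm _).trans ?_
    rw [(EuclideanSpace.basisFun (Fin d) ℝ).norm_eq_one, mul_one]
    exact hL z
  simp only [hn0, sub_zero] at hn2 hnv
  have hfc : Continuous f := continuous_iff_continuousAt.2 fun y => (hf y).continuousAt
  have hlip : ∀ x y, |f x - f y| ≤ K * ‖x - y‖ := fun x y =>
    convex_univ.norm_image_sub_le_of_norm_hasFDerivWithin_le
      (fun z _ => (hf z).hasFDerivWithinAt) (fun z _ => by rw [innerSL_apply_norm]; exact hK z)
      (Set.mem_univ y) (Set.mem_univ x)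
  have hcn : ∀ t : ℝ, Continuous fun z => c - t • n z := fun t => by
    have := hn.continuous; fun_prop
  have hint : ∀ t : ℝ, Integrable (fun z => f (c - t • n z)) (gd d) := fun t => by
    refine ((integrable_const |f c|).add (hni.norm.const_mul (K * |t|))).mono'
      (hfc.comp (hcn t)).aestronglyMeasurable (ae_of_all _ fun z => ?_)
    have h := hlip (c - t • n z) c
    rw [sub_sub_cancel_left, norm_neg, norm_smul, Real.norm_eq_abs, ← mul_assoc] at h
    simp only [Real.norm_eq_abs, Pi.add_apply]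
    linarith [abs_sub_abs_le_abs_sub (f (c - t • n z)) (f c)]
  have hdd : ∀ t : ℝ, Continuous fun z => ⟪F (c - t • n z), -n z⟫ := fun t =>
    (hF.continuous.comp (hcn t)).inner hn.continuous.neg
  have hdb : ∀ (t : ℝ) z, ‖⟪F (c - t • n z), -n z⟫‖ ≤ K * ‖n z‖ := fun t z => by
    refine (norm_inner_le_norm _ _).trans ?_
    rw [norm_neg]
    exact mul_le_mul_of_nonneg_right (hK _) (norm_nonneg _)
  have hderiv : ∀ t : ℝ, HasDerivAt (fun s : ℝ => ∫ z, f (c - s • n z) ∂gd d)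
      (∫ z, ⟪F (c - t • n z), -n z⟫ ∂gd d) t := fun t => by
    refine (hasDerivAt_integral_of_dominated_loc_of_deriv_le (s := Set.univ)
      (F := fun (s : ℝ) z => f (c - s • n z))
      (F' := fun (s : ℝ) z => ⟪F (c - s • n z), -n z⟫)
      (bound := fun z => K * ‖n z‖) Filter.univ_mem
      (Filter.Eventually.of_forall fun s => (hfc.comp (hcn s)).aestronglyMeasurable)
      (hint t) (hdd t).aestronglyMeasurable
      (ae_of_all _ fun z s _ => hdb s z) (hni.norm.const_mul K)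
      (ae_of_all _ fun z s _ => ?_)).2
    have h := (hf (c - s • n z)).comp_hasDerivAt s (((hasDerivAt_id s).smul_const (n z)).const_sub c)
    simpa [innerSL_apply_apply, Function.comp_def] using h
  have hbound : ∀ t : ℝ, 0 ≤ t → t ≤ 1 →
      ‖∫ z, ⟪F (c - t • n z), -n z⟫ ∂gd d‖ ≤ √M * L * (√(d : ℝ) * L) := fun t ht ht1 => by
    have hΦ : ContDiff ℝ 1 fun z => F (c - t • n z) := hF.comp (by fun_prop)
    have hfd : ∀ z, fderiv ℝ (fun z => F (c - t • n z)) z =
        (fderiv ℝ F (c - t • n z)).comp (-(t • fderiv ℝ n z)) := fun z =>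
      (((hF.differentiable one_ne_zero) _).hasFDerivAt.comp z
        ((((hn.differentiable one_ne_zero) z).hasFDerivAt.const_smul t).const_sub c)).fderiv
    have hBn : ∀ z, ‖-(t • fderiv ℝ n z)‖ ≤ L := fun z => by
      rw [norm_neg, norm_smul, Real.norm_eq_abs, abs_of_nonneg ht]
      exact (mul_le_of_le_one_left (norm_nonneg _) ht1).trans (hL z)
    have hHS : ∀ z, ∑ i, ‖fderiv ℝ (fun z => F (c - t • n z)) z (e i)‖ ^ 2 ≤ (√M * L) ^ 2 := by
      intro z
      rw [hfd, mul_pow, sq_sqrt hM0, mul_comm]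
      exact (hs_comp_le _ _).trans (mul_le_mul (pow_le_pow_left₀ (norm_nonneg _) (hBn z) 2) (hM _)
        (Finset.sum_nonneg fun i _ => sq_nonneg _) (sq_nonneg _))
    obtain ⟨hΦi, hΦ2, hΦv⟩ := poincare_vec hΦ (L := √M * L)
      (fun z => (opNorm_le_hs _).trans ((Real.sqrt_le_sqrt (hHS z)).trans_eq
        (sqrt_sq (by positivity)))) hHS
    set m := ∫ z, F (c - t • n z) ∂gd d
    have hmn : Integrable (fun z => ⟪m, -n z⟫) (gd d) := hni.neg.const_inner m
    have hFn : Integrable (fun z => ⟪F (c - t • n z), -n z⟫) (gd d) :=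
      (hni.norm.const_mul K).mono' (hdd t).aestronglyMeasurable (ae_of_all _ (hdb t))
    have hm0 : ∫ z, ⟪m, -n z⟫ ∂gd d = 0 := by
      have hneg : Integrable (fun z => -n z) (gd d) := hni.neg
      rw [integral_inner hneg m]
      simp [integral_neg, hn0]
    have hprod : Integrable (fun z => ‖F (c - t • n z) - m‖ * ‖n z‖) (gd d) := by
      refine (hΦ2.add hn2).mono'
        ((hΦ.continuous.sub continuous_const).norm.mul hn.continuous.norm).aestronglyMeasurable
        (ae_of_all _ fun z => ?_)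
      simp only [norm_mul, norm_norm, Pi.add_apply]
      nlinarith [sq_nonneg (‖F (c - t • n z) - m‖ - ‖n z‖), sq_nonneg (‖F (c - t • n z) - m‖),
        sq_nonneg ‖n z‖]
    calc ‖∫ z, ⟪F (c - t • n z), -n z⟫ ∂gd d‖
        = ‖∫ z, ⟪F (c - t • n z) - m, -n z⟫ ∂gd d‖ := by
          simp only [inner_sub_left]
          rw [integral_sub hFn hmn, hm0, sub_zero]
      _ ≤ ∫ z, ‖F (c - t • n z) - m‖ * ‖n z‖ ∂gd d :=
          norm_integral_le_of_norm_le hprod (ae_of_all _ fun z =>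
            (norm_inner_le_norm _ _).trans_eq (by rw [norm_neg]))
      _ ≤ _ := (integral_mul_le hprod hΦ2 hn2).trans
          (mul_le_mul ((Real.sqrt_le_sqrt hΦv).trans_eq (sqrt_sq (by positivity)))
            ((Real.sqrt_le_sqrt hnv).trans_eq (sqrt_sq (by positivity))) (sqrt_nonneg _)
            (by positivity))
  have h := norm_image_sub_le_of_norm_deriv_le_segment_01'
    (fun t _ => (hderiv t).hasDerivWithinAt) (fun t ht => hbound t ht.1 ht.2.le)
  simpa using h

end Vale.Agent.P347.Quarter.MeanPt
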