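import Vale.Agent.P347.Quarter.Tilt
import Vale.Agent.P347.Quarter.Flow
import Vale.Agent.P347.Quarter.Absorb
import Vale.Agent.P347.Quarter.Mean.Basic
import Vale.Agent.P347.Quarter.Mean.Noise

/-! # P347: the four steps for the mean of the gradient at the evaluation point -/

open MeasureTheory ProbabilityTheory Real
open scoped RealInnerProductSpace

namespace Vale.Agent.P347.Quarter.MeanPt

variable {d N : ℕ} {W : Sp d → ℝ} {G : Sp d → Sp d} {H : Sp d → Sp d →L[ℝ] Sp d}
  {η C₀ : ℝ} {w v : Fin N → ℝ}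

theorem norm_le_of_inner {D : Sp d} {R : ℝ} (hR : 0 ≤ R)
    (h : ∀ u : Sp d, ‖u‖ = 1 → |⟪u, D⟫| ≤ R) : ‖D‖ ≤ R := by
  rcases eq_or_ne D 0 with rfl | hD
  · simpa using hR
  have hn : ‖D‖ ≠ 0 := norm_ne_zero_iff.2 hD
  have h1 := h (‖D‖⁻¹ • D) (by rw [norm_smul, norm_inv, norm_norm, inv_mul_cancel₀ hn])
  rw [real_inner_smul_left, real_inner_self_eq_norm_sq] at h1
  have e : ‖D‖⁻¹ * ‖D‖ ^ 2 = ‖D‖ := by field_simp
  rwa [e, abs_norm] at h1

theorem norm_smth_sub (hW : IsPot W G H 0 η) (hη : 0 ≤ η) (b : ℝ) (x y : Sp d) :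
    ‖smth 1 b G x - smth 1 b G y‖ ≤ η * ‖x - y‖ := by
  obtain ⟨h1, h2⟩ := contDiff_smth hW hη 1 b
  exact convex_univ.norm_image_sub_le_of_norm_fderiv_le
    (fun z _ => (h1.differentiable one_ne_zero) z) (fun z _ => by simpa using h2 z)
    (Set.mem_univ y) (Set.mem_univ x)

theorem norm_smth_le (hW : IsPot W G H 0 η) (hη : 0 ≤ η) (b : ℝ) (x : Sp d) :
    ‖smth 1 b G x‖ ≤ ‖smth 1 b G 0‖ + η * ‖x‖ := by
  have h := norm_smth_sub hW hη b x 0
  rw [sub_zero] at h
  linarith [norm_sub_norm_le (smth 1 b G x) (smth 1 b G 0)]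

theorem fderiv_smth_symm (hW : IsPot W G H 0 η) (hη : 0 ≤ η) (a b : ℝ) (y x z : Sp d) :
    ⟪fderiv ℝ (smth a b G) y x, z⟫ = ⟪x, fderiv ℝ (smth a b G) y z⟫ := by
  have hi : Integrable (fun ω => a • H (a • y + b • ω)) (gd d) :=
    (integrable_const (|a| * η)).mono'
      ((hW.contHess.comp (f := fun ω => a • y + b • ω) (by fun_prop)).const_smul
        a).aestronglyMeasurable
      (ae_of_all _ fun ω => by
        rw [norm_smul, Real.norm_eq_abs]
        exact mul_le_mul_of_nonneg_left (hW.norm_hess hη _) (abs_nonneg a))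
  rw [(hasFDerivAt_smth hW hη a b y).fderiv, ContinuousLinearMap.integral_apply hi,
    ContinuousLinearMap.integral_apply hi, real_inner_comm]
  have hiv : ∀ p : Sp d, Integrable (fun ω => (a • H (a • y + b • ω)) p) (gd d) := fun p =>
    (ContinuousLinearMap.apply ℝ (Sp d) p).integrable_comp hi
  rw [← integral_inner (hiv x) z, ← integral_inner (hiv z) x]
  refine integral_congr_ae (ae_of_all _ fun ω => ?_)
  simp only [smul_apply, inner_smul_right]
  rw [← hW.symHess _ x z, real_inner_comm z]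

section samp

variable (hW : IsPot W G H 0 η) (hη : 0 ≤ η) (hv : ∀ j, 0 ≤ v j ∧ v j ≤ 1)
  (hw : ∑ j, |w j| ≤ C₀)

include hW hη hv hw

/-- The randomness of one sample of the quadrature. -/
theorem step_noise {b : ℝ} (hb : 0 < b) (y x : Sp d) :
    ‖(∫ z, smth 1 b G (y - qsamp w v G x z) ∂gd d) - smth 1 b G (y - qflow w v G x)‖ ≤
      C₀ ^ 2 * η ^ 3 * (√(d : ℝ) / b) := by
  have hC : 0 ≤ C₀ := (Finset.sum_nonneg fun j _ => abs_nonneg (w j)).trans hw
  obtain ⟨hs1, hs2⟩ := contDiff_smth hW hη 1 b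
  obtain ⟨hq1, hq2⟩ := qsamp_smooth hW hη hv hw x
  have hn0 : ∫ z, (qsamp w v G x z - qflow w v G x) ∂gd d = 0 := by
    rw [integral_sub (integrable_qsamp hW hη hv hw x) (integrable_const _), integral_const,
      probReal_univ, one_smul, qflow_eq hW hη hv, sub_self]
  have hi : Integrable (fun z => smth 1 b G (y - qsamp w v G x z)) (gd d) := by
    refine integrable_lin (hs1.continuous.comp (continuous_const.sub hq1.continuous))
      integrable_norm_gd (a := ‖smth 1 b G 0‖ + η * (‖y‖ + C₀ * (‖G 0‖ + η * ‖x‖)))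
      (b := η * (C₀ * η)) fun z => (norm_smth_le hW hη b _).trans ?_
    nlinarith [mul_le_mul_of_nonneg_left ((norm_sub_le y (qsamp w v G x z)).trans
      (add_le_add le_rfl (qsamp_growth hW hη hv hw x z))) hη]
  refine norm_le_of_inner (by positivity) fun u hu => ?_
  set n := fun z => qsamp w v G x z - qflow w v G x with hn
  obtain ⟨hF, hM⟩ := smth_hess hW (a := 1) hb.ne' u
  have h := noise (f := fun p => ⟪u, smth 1 b G p⟫) (F := fun p => fderiv ℝ (smth 1 b G) p u)
    (n := n) (K := η) (L := C₀ * η) (M := (η / b) ^ 2)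
    (fun p => ((fderiv ℝ (smth 1 b G) p).le_opNorm u).trans (by
      rw [hu, mul_one]; simpa using hs2 p))
    (fun p => by
      have hd := (innerSL ℝ u).hasFDerivAt.comp p
        ((hs1.differentiable one_ne_zero) p).hasFDerivAt
      refine (hd.congr_fderiv (ContinuousLinearMap.ext fun h => ?_)).congr_of_eventuallyEq
        (Filter.Eventually.of_forall fun q => rfl)
      simp only [ContinuousLinearMap.comp_apply, innerSL_apply_apply]
      rw [fderiv_smth_symm hW hη]) hF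
    (fun p => (hM p).trans_eq (by rw [hu, abs_of_pos hb, mul_one, one_pow, one_div_mul_eq_div]))
    (hq1.sub contDiff_const)
    (fun z => by rw [hn, fderiv_sub_const]; exact hq2 z) hn0 (y - qflow w v G x)
  have e : ∀ z, y - qflow w v G x - n z = y - qsamp w v G x z := fun z => by
    simp only [hn]; abel
  simp only [e] at h
  rw [integral_inner hi u, ← inner_sub_right, sqrt_sq (by positivity)] at h
  exact h.trans_eq (by ring)

/-- The error of the quadrature and of stopping the flow early. -/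
theorem step_flow (hd : ‖G 0‖ ≤ η * √(d : ℝ)) {s εq : ℝ} (hs0 : 0 ≤ s) (hs1 : s ≤ 1)
    (hε : 0 ≤ εq) (hq : ∫ x, ‖flow (1 - s) G x - qflow w v G x‖ ^ 2 ∂gd d ≤ εq ^ 2) (a b : ℝ) :
    ‖(∫ x, smth 1 b G (a • x - qflow w v G x) ∂gd d) -
        ∫ x, smth 1 b G (a • x - flow 1 G x) ∂gd d‖ ≤
      η * (εq + 3 * s * η * √(d : ℝ)) := by
  have hC : 0 ≤ C₀ := (Finset.sum_nonneg fun j _ => abs_nonneg (w j)).trans hw
  obtain ⟨hf1, -, hg1, -⟩ := flow_spec hW hη (κ := 1) zero_le_one le_rfl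
  obtain ⟨hfs, -, hgs, hds⟩ := flow_spec hW hη (κ := 1 - s) (by linarith) (by linarith)
  have hqc : Continuous (qflow w v G) := continuous_qflow hW hη hv hw
  have hgr : ∀ x, ‖qflow w v G x‖ ≤ C₀ * (‖G 0‖ + η * √(d : ℝ)) + C₀ * η * ‖x‖ := fun x =>
    (qflow_growth hW hη hv hw x).trans_eq (by ring)
  have hsc := (contDiff_smth hW hη 1 b).1.continuous
  have hiq : Integrable (fun x => smth 1 b G (a • x - qflow w v G x)) (gd d) := by
    refine integrable_lin (hsc.comp (by fun_prop)) integrable_norm_gd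
      (a := ‖smth 1 b G 0‖ + η * (C₀ * (‖G 0‖ + η * √(d : ℝ)))) (b := η * (|a| + C₀ * η))
      fun x => (norm_smth_le hW hη b _).trans ?_
    have h := (norm_sub_le (a • x) (qflow w v G x)).trans (add_le_add
      (norm_smul_le a x) (hgr x))
    rw [Real.norm_eq_abs] at h
    nlinarith [mul_le_mul_of_nonneg_left h hη]
  have hif : Integrable (fun x => smth 1 b G (a • x - flow 1 G x)) (gd d) := by
    refine integrable_lin (hsc.comp ((continuous_id.const_smul a).sub hf1.continuous))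
      integrable_norm_gd
      (a := ‖smth 1 b G 0‖ + η * (‖G 0‖ + η * √(d : ℝ))) (b := η * (|a| + η))
      fun x => (norm_smth_le hW hη b _).trans ?_
    have h := (norm_sub_le (a • x) (flow 1 G x)).trans (add_le_add
      (norm_smul_le a x) (hg1 x))
    rw [Real.norm_eq_abs] at h
    nlinarith [mul_le_mul_of_nonneg_left h hη]
  have hD : Integrable (fun x => ‖flow (1 - s) G x - qflow w v G x‖) (gd d) := by
    refine (integrable_lin (hfs.continuous.sub hqc) integrable_norm_gd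
      (a := ‖G 0‖ + η * √(d : ℝ) + C₀ * (‖G 0‖ + η * √(d : ℝ))) (b := η + C₀ * η)
      fun x => ?_).norm
    exact (norm_sub_le _ _).trans ((add_le_add (hgs x) (hgr x)).trans_eq (by ring))
  have hD2 : Integrable (fun x => ‖flow (1 - s) G x - qflow w v G x‖ ^ 2) (gd d) := by
    set K := ‖G 0‖ + η * √(d : ℝ) + C₀ * (‖G 0‖ + η * √(d : ℝ))
    set L := η + C₀ * η
    refine ((integrable_const (2 * K ^ 2)).add
      ((integral_norm_sq (ι := Fin d)).1.const_mul (2 * L ^ 2))).mono'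
      ((hfs.continuous.sub hqc).norm.pow 2).aestronglyMeasurable (ae_of_all _ fun x => ?_)
    have h : ‖flow (1 - s) G x - qflow w v G x‖ ≤ K + L * ‖x‖ :=
      (norm_sub_le _ _).trans ((add_le_add (hgs x) (hgr x)).trans_eq (by simp only [K, L]; ring))
    rw [Real.norm_eq_abs, abs_of_nonneg (sq_nonneg _)]
    simp only [Pi.add_apply]
    nlinarith [pow_le_pow_left₀ (norm_nonneg _) h 2, sq_nonneg (K - L * ‖x‖)]
  have h1 : ∫ x, ‖flow (1 - s) G x - qflow w v G x‖ ∂gd d ≤ εq :=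
    (abs_le_of_sq_le_sq' ((sq_integral_le hD hD2).trans hq) hε).2
  rw [← integral_sub hiq hif]
  refine (norm_integral_le_of_norm_le
    (((hD.const_mul η).add ((integrable_const (η * s * (‖G 0‖ + η * √(d : ℝ)))).add
      (integrable_norm_gd.const_mul (η * s * η))))) (ae_of_all _ fun x => ?_)).trans ?_
  · refine (norm_smth_sub hW hη b _ _).trans ?_
    rw [sub_sub_sub_cancel_left]
    have h := norm_sub_le_norm_sub_add_norm_sub (flow 1 G x) (flow (1 - s) G x) (qflow w v G x)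
    have h2 := hds x
    rw [sub_sub_cancel] at h2
    simp only [Pi.add_apply]
    nlinarith [mul_le_mul_of_nonneg_left (h.trans (add_le_add h2 le_rfl)) hη]
  · have h2 := integral_norm_le (d := d)
    rw [integral_add' (hD.const_mul _) ((integrable_const _).add (integrable_norm_gd.const_mul _)),
      integral_add' (integrable_const _) (integrable_norm_gd.const_mul _), integral_const,
      probReal_univ, one_smul]
    simp only [integral_const_mul]
    nlinarith [mul_le_mul_of_nonneg_left h1 hη,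
      mul_le_mul_of_nonneg_left h2 (mul_nonneg (mul_nonneg hη hs0) hη),
      mul_le_mul_of_nonneg_left hd (mul_nonneg hη hs0)]

/-- Fubini for the evaluation point. -/
theorem mean_eq {a b : ℝ} :
    Integrable (fun x => ∫ z, smth 1 b G (a • x - qsamp w v G x z) ∂gd d) (gd d) ∧
    (∫ p : Sp d × Sp d × Sp d, G (a • p.1 + b • p.2.1 - qsamp w v G p.1 p.2.2)
        ∂(gd d).prod ((gd d).prod (gd d))) =
      ∫ x, ∫ z, smth 1 b G (a • x - qsamp w v G x z) ∂gd d ∂gd d := by
  have hC : 0 ≤ C₀ := (Finset.sum_nonneg fun j _ => abs_nonneg (w j)).trans hw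
  have hGc := hW.continuous_grad
  have hqc : Continuous fun p : Sp d × Sp d × Sp d => qsamp w v G p.1 p.2.2 :=
    (continuous_qsamp hW (w := w) (v := v)).comp
      (f := fun p : Sp d × Sp d × Sp d => (p.1, p.2.2)) (by fun_prop)
  set K := |a| + |b| + 2 * (C₀ * η) with hK
  have hi : Integrable (fun p : Sp d × Sp d × Sp d =>
      G (a • p.1 + b • p.2.1 - qsamp w v G p.1 p.2.2)) ((gd d).prod ((gd d).prod (gd d))) := by
    refine integrable_lin (hGc.comp (by fun_prop))
      (g := fun p : Sp d × Sp d × Sp d => ‖p.1‖ + (‖p.2.1‖ + ‖p.2.2‖))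
      ((integrable_norm_gd.comp_fst _).add
        (((integrable_norm_gd.comp_fst _).add (integrable_norm_gd.comp_snd _)).comp_snd _))
      (a := ‖G 0‖ + η * (C₀ * ‖G 0‖)) (b := η * K)
      fun p => (hW.norm_grad_le hη _).trans ?_
    have h := (norm_sub_le (a • p.1 + b • p.2.1) (qsamp w v G p.1 p.2.2)).trans
      (add_le_add ((norm_add_le _ _).trans (add_le_add (norm_smul_le a p.1) (norm_smul_le b p.2.1)))
        (qsamp_growth hW hη hv hw p.1 p.2.2))
    rw [Real.norm_eq_abs, Real.norm_eq_abs] at h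
    nlinarith [mul_le_mul_of_nonneg_left h hη, abs_nonneg a, abs_nonneg b, mul_nonneg hC hη,
      norm_nonneg p.1, norm_nonneg p.2.1, norm_nonneg p.2.2,
      mul_nonneg (mul_nonneg hη (abs_nonneg a)) (add_nonneg (norm_nonneg p.2.1) (norm_nonneg p.2.2)),
      mul_nonneg (mul_nonneg hη (abs_nonneg b)) (add_nonneg (norm_nonneg p.1) (norm_nonneg p.2.2)),
      mul_nonneg (mul_nonneg hη (mul_nonneg hC hη)) (norm_nonneg p.1),
      mul_nonneg (mul_nonneg hη (mul_nonneg hC hη)) (norm_nonneg p.2.1),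
      mul_nonneg (mul_nonneg hη (mul_nonneg hC hη)) (norm_nonneg p.2.2)]
  have key : (fun x => ∫ r : Sp d × Sp d, G (a • x + b • r.1 - qsamp w v G x r.2)
      ∂(gd d).prod (gd d)) =ᵐ[gd d]
      fun x => ∫ z, smth 1 b G (a • x - qsamp w v G x z) ∂gd d := by
    filter_upwards [hi.prod_right_ae] with x hx
    rw [integral_prod_symm _ hx]
    refine integral_congr_ae (ae_of_all _ fun z => ?_)
    simp only [smth, one_smul]
    refine integral_congr_ae (ae_of_all _ fun ζ => ?_)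
    simp only
    congr 1
    abel
  exact ⟨hi.integral_prod_left.congr key, (integral_prod _ hi).trans (integral_congr_ae key)⟩

end samp

/-- The forward noise can be merged into the base point. -/
theorem step_merge (hW : IsPot W G H 0 η) (hη : 0 ≤ η) {a b : ℝ} (ha : 0 ≤ a) (hb : 0 ≤ b)
    (hab : a ^ 2 + b ^ 2 = 1) :
    ‖(∫ x, smth 1 b G (a • x - flow 1 G x) ∂gd d) - ∫ x, G (tmap 1 G x) ∂gd d‖ ≤
      η ^ 2 * ((1 - a + b) * √(d : ℝ)) := by
  obtain ⟨hf, hfd, hfg, -⟩ := flow_spec hW hη (κ := 1) zero_le_one le_rfl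
  have ha1 : a ≤ 1 := by nlinarith
  have hb1 : b ≤ 1 := by nlinarith
  have hlip : ∀ x y, ‖flow 1 G x - flow 1 G y‖ ≤ η * ‖x - y‖ := fun x y =>
    convex_univ.norm_image_sub_le_of_norm_fderiv_le
      (fun z _ => (hf.differentiable one_ne_zero) z) (fun z _ => hfd z) (Set.mem_univ y)
      (Set.mem_univ x)
  have hg2 : Integrable (fun p : Sp d × Sp d => ‖p.1‖ + ‖p.2‖) ((gd d).prod (gd d)) :=
    (integrable_norm_gd.comp_fst _).add (integrable_norm_gd.comp_snd _)
  have hfc := hf.continuous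
  have hGc := hW.continuous_grad
  have hpt : ∀ p : Sp d × Sp d, ‖a • p.1 + b • p.2‖ ≤ ‖p.1‖ + ‖p.2‖ := fun p => by
    refine (norm_add_le _ _).trans (add_le_add ?_ ?_) <;>
      rw [norm_smul, Real.norm_eq_abs, abs_of_nonneg] <;>
      first
        | exact mul_le_of_le_one_left (norm_nonneg _) ha1
        | exact mul_le_of_le_one_left (norm_nonneg _) hb1
        | assumption
  have hi1 : Integrable (fun p : Sp d × Sp d => G (a • p.1 + b • p.2 - flow 1 G p.1))
      ((gd d).prod (gd d)) := by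
    refine integrable_lin (hGc.comp (by fun_prop)) hg2
      (a := ‖G 0‖ + η * (‖G 0‖ + η * √(d : ℝ))) (b := η * (1 + η))
      fun p => (hW.norm_grad_le hη _).trans ?_
    nlinarith [mul_le_mul_of_nonneg_left ((norm_sub_le (a • p.1 + b • p.2) (flow 1 G p.1)).trans
      (add_le_add (hpt p) (hfg p.1))) hη, mul_nonneg (mul_nonneg hη hη) (norm_nonneg p.2)]
  have hi2 : Integrable (fun p : Sp d × Sp d => G (tmap 1 G (a • p.1 + b • p.2)))
      ((gd d).prod (gd d)) := by
    refine integrable_lin (hGc.comp (by unfold tmap; fun_prop)) hg2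
      (a := ‖G 0‖ + η * (‖G 0‖ + η * √(d : ℝ))) (b := η * (1 + η))
      fun p => (hW.norm_grad_le hη _).trans ?_
    rw [tmap]
    nlinarith [mul_le_mul_of_nonneg_left ((norm_sub_le (a • p.1 + b • p.2)
      (flow 1 G (a • p.1 + b • p.2))).trans (add_le_add (hpt p) (hfg _))) hη,
      mul_le_mul_of_nonneg_left (hpt p) (mul_nonneg hη hη)]
  have e1 : ∫ x, smth 1 b G (a • x - flow 1 G x) ∂gd d =
      ∫ p : Sp d × Sp d, G (a • p.1 + b • p.2 - flow 1 G p.1) ∂(gd d).prod (gd d) := by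
    rw [integral_prod _ hi1]
    refine integral_congr_ae (ae_of_all _ fun x => ?_)
    simp only [smth, one_smul]
    refine integral_congr_ae (ae_of_all _ fun ζ => ?_)
    simp only
    congr 1
    abel
  have hm : ((gd d).prod (gd d)).map (fun p : Sp d × Sp d => a • p.1 + b • p.2) = gd d := by
    rw [gauss_combine, hab, sqrt_one]
    simp
  have e2 : ∫ x, G (tmap 1 G x) ∂gd d =
      ∫ p : Sp d × Sp d, G (tmap 1 G (a • p.1 + b • p.2)) ∂(gd d).prod (gd d) := by
    conv_lhs => rw [← hm]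
    rw [integral_map (by fun_prop)]
    exact (hGc.comp (by unfold tmap; fun_prop)).aestronglyMeasurable
  rw [e1, e2, ← integral_sub hi1 hi2]
  refine (norm_integral_le_of_norm_le
    (g := fun p : Sp d × Sp d => η ^ 2 * (1 - a) * ‖p.1‖ + η ^ 2 * b * ‖p.2‖)
    (((integrable_norm_gd.comp_fst _).const_mul _).add
      ((integrable_norm_gd.comp_snd _).const_mul _)) (ae_of_all _ fun p => ?_)).trans ?_
  · refine (hW.norm_grad_sub hη _ _).trans ?_
    rw [tmap, sub_sub_sub_cancel_left]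
    have h : ‖a • p.1 + b • p.2 - p.1‖ ≤ (1 - a) * ‖p.1‖ + b * ‖p.2‖ := by
      have e : a • p.1 + b • p.2 - p.1 = b • p.2 - (1 - a) • p.1 := by module
      rw [e]
      refine (norm_sub_le _ _).trans_eq ?_
      rw [norm_smul, norm_smul, Real.norm_eq_abs, Real.norm_eq_abs, abs_of_nonneg hb,
        abs_of_nonneg (sub_nonneg.2 ha1)]
      ring
    nlinarith [mul_le_mul_of_nonneg_left ((hlip _ _).trans (mul_le_mul_of_nonneg_left h hη)) hη]
  · have h1 : ∫ p : Sp d × Sp d, ‖p.1‖ ∂(gd d).prod (gd d) = ∫ x, ‖x‖ ∂gd d := by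
      rw [integral_fun_fst (fun x : Sp d => ‖x‖)]; simp
    have h2 : ∫ p : Sp d × Sp d, ‖p.2‖ ∂(gd d).prod (gd d) = ∫ x, ‖x‖ ∂gd d := by
      rw [integral_fun_snd (fun x : Sp d => ‖x‖)]; simp
    rw [integral_add ((integrable_norm_gd.comp_fst _).const_mul _)
      ((integrable_norm_gd.comp_snd _).const_mul _), integral_const_mul, integral_const_mul, h1, h2,
      ← add_mul]
    have hnn : 0 ≤ η ^ 2 * (1 - a) + η ^ 2 * b :=
      add_nonneg (mul_nonneg (sq_nonneg _) (sub_nonneg.2 ha1)) (mul_nonneg (sq_nonneg _) hb)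
    exact (mul_le_mul_of_nonneg_left integral_norm_le hnn).trans_eq (by ring)

/-- Transport to the target. -/
theorem step_tilt : ∃ C c₀ : ℝ, 0 ≤ C ∧ 0 < c₀ ∧ ∀ {d : ℕ} {W : Sp d → ℝ} {G : Sp d → Sp d}
    {H : Sp d → Sp d →L[ℝ] Sp d} {η : ℝ}, IsPot W G H 0 η → 0 ≤ η → ‖G 0‖ ≤ η * √(d : ℝ) →
    η ^ 2 + η ^ 4 * d ≤ c₀ →
    ‖(∫ x, G (tmap 1 G x) ∂gd d) - ∫ x, G x ∂gibbs W‖ ≤ C * (η ^ 2 + η ^ 3 * √(d : ℝ)) := by
  obtain ⟨C₁, hC₁, htr⟩ := transport
  obtain ⟨C₂, c₂, hC₂, hc₂, hti⟩ := tilt_chi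
  refine ⟨3 * C₁ * C₂, min (1 / 10000) (c₂ / (5 * C₁ ^ 2 + 1)), by positivity, by positivity, ?_⟩
  intro d W G H η hW hη hd hc
  have hηd : η ^ 2 ≤ 1 / 10000 := by
    have := hc.trans (min_le_left _ _)
    nlinarith [mul_nonneg (pow_nonneg hη 4) (Nat.cast_nonneg (α := ℝ) d)]
  have hη' : η ≤ 1 / 100 := by nlinarith
  have hGc := hW.continuous_grad
  obtain ⟨r, hr, hrb, hmap⟩ := htr (κ := 1) hW hη' zero_le_one le_rfl (Φ := W) (Φ' := G) hGc
    hW.hasGrad fun x => by
      have e : pv 1 G x = G x := by simp [pv, smth]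
      rw [one_smul, e, sub_self, norm_zero]
      positivity
  obtain ⟨hf, -, hfg, -⟩ := flow_spec hW hη (κ := 1) zero_le_one le_rfl
  have hfc := hf.continuous
  have hT : Continuous (tmap 1 G) := by unfold tmap; fun_prop
  have := isProb_gibbs hW le_rfl
  have hiG : Integrable G (gibbs W) :=
    integrable_lin hGc (gibbs_exp_norm hW le_rfl 1) (a := ‖G 0‖) (b := η) fun x =>
      (hW.norm_grad_le hη x).trans (add_le_add le_rfl (mul_le_mul_of_nonneg_left
        (by linarith [add_one_le_exp (1 * ‖x‖)]) hη))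
  have hiT : Integrable (fun x => G (tmap 1 G x)) (gd d) := by
    refine integrable_lin (hGc.comp hT) integrable_norm_gd
      (a := ‖G 0‖ + η * (‖G 0‖ + η * √(d : ℝ))) (b := η * (1 + η))
      fun x => (hW.norm_grad_le hη _).trans ?_
    rw [tmap]
    nlinarith [mul_le_mul_of_nonneg_left ((norm_sub_le x (flow 1 G x)).trans
      (add_le_add le_rfl (hfg x))) hη]
  refine norm_le_of_inner (by positivity) fun u hu => ?_
  set g : Sp d → ℝ := fun x => ⟪u, G x⟫ with hg
  have hgd : ∀ x, HasFDerivAt g ((innerSL ℝ u).comp (H x)) x := fun x =>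
    (innerSL ℝ u).hasFDerivAt.comp x (hW.hasHess x)
  have hgc : ContDiff ℝ 1 g := (innerSL ℝ u).contDiff.comp hW.contDiff_grad
  have hgn : ∀ x, ‖fderiv ℝ g x‖ ≤ η := fun x => by
    rw [(hgd x).fderiv]
    refine (ContinuousLinearMap.opNorm_comp_le _ _).trans ?_
    rw [innerSL_apply_norm, hu, one_mul]
    exact hW.norm_hess hη x
  obtain ⟨hmem, hvar⟩ := gibbs_poincare hW le_rfl hgc (A := η) (B := 0) (fun x => (hgn x).trans_eq (by ring))
  set μ := ∫ y, g y ∂gibbs W with hμ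
  have hv : ∫ x, (g x - μ) ^ 2 ∂gibbs W ≤ η ^ 2 := by
    refine hvar.trans ?_
    rw [add_zero, inv_one, one_mul]
    refine (le_abs_self _).trans ((norm_integral_le_of_norm_le_const (C := η ^ 2) (μ := gibbs W)
      (f := fun x => ‖fderiv ℝ g x‖ ^ 2) (ae_of_all _ fun x => ?_)).trans_eq
        (by rw [probReal_univ, mul_one]))
    rw [Real.norm_eq_abs, abs_of_nonneg (sq_nonneg _)]
    exact pow_le_pow_left₀ (norm_nonneg _) (hgn x) 2
  have hgμ : Measurable fun x => g x - μ := (hgc.continuous.sub continuous_const).measurable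
  have hc2 : (2 * C₁ * η ^ 2 * √(d : ℝ)) ^ 2 + (C₁ * η ^ 2) ^ 2 * d + (C₁ * η ^ 2) ^ 2 ≤ c₂ := by
    have h := hc.trans (min_le_right _ _)
    rw [le_div_iff₀ (by positivity)] at h
    have h2 : (√(d : ℝ)) ^ 2 = d := sq_sqrt (Nat.cast_nonneg d)
    have h4 : η ^ 4 ≤ η ^ 2 := by
      calc η ^ 4 = η ^ 2 * η ^ 2 := by ring
        _ ≤ 1 * η ^ 2 := mul_le_mul_of_nonneg_right (by linarith) (sq_nonneg η)
        _ = η ^ 2 := one_mul _
    have e : (2 * C₁ * η ^ 2 * √(d : ℝ)) ^ 2 + (C₁ * η ^ 2) ^ 2 * d + (C₁ * η ^ 2) ^ 2 =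
        C₁ ^ 2 * (5 * (η ^ 4 * d) + η ^ 4) := by
      rw [mul_pow, mul_pow, h2]; ring
    rw [e]
    nlinarith [mul_le_mul_of_nonneg_left h4 (sq_nonneg C₁),
      mul_nonneg (sq_nonneg C₁) (sq_nonneg η), mul_nonneg (pow_nonneg hη 4) (Nat.cast_nonneg (α := ℝ) d)]
  have hm2 : MemLp (fun x => g x - μ) 2 (gibbs W) := hmem.sub (memLp_const μ)
  obtain ⟨-, hb⟩ := hti hr (A := 2 * C₁ * η ^ 2 * √(d : ℝ)) (B := C₁ * η ^ 2) (by positivity)
    (by positivity) (fun x => (hrb x).trans (by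
      nlinarith [mul_le_mul_of_nonneg_left hd (mul_nonneg hC₁ hη)]))
    hc2 (fun x => g (tmap 1 G x) - μ) (hgμ.comp hT.measurable)
    (hm2.comp_measurePreserving (f := tmap 1 G) ⟨hT.measurable, hmap⟩)
  have hae : AEMeasurable (tmap 1 G) (gibbs r) := hT.measurable.aemeasurable
  have e0 : ∫ x, (g (tmap 1 G x) - μ) ∂gibbs r = 0 := by
    rw [← integral_map hae (f := fun x => g x - μ) hgμ.aestronglyMeasurable, hmap,
      integral_sub (hmem.integrable one_le_two) (integrable_const _), integral_const,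
      probReal_univ, one_smul, sub_self]
  have e2 : ∫ x, (g (tmap 1 G x) - μ) ^ 2 ∂gibbs r ≤ η ^ 2 := by
    rw [← integral_map hae (f := fun x => (g x - μ) ^ 2) (hgμ.pow_const 2).aestronglyMeasurable,
      hmap]
    exact hv
  have e1 : ∫ x, (g (tmap 1 G x) - μ) ∂gd d =
      ⟪u, (∫ x, G (tmap 1 G x) ∂gd d) - ∫ x, G x ∂gibbs W⟫ := by
    rw [integral_sub (hiT.const_inner u) (integrable_const _), integral_const, probReal_univ,
      one_smul, inner_sub_right, ← integral_inner hiT u, ← integral_inner hiG u]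
  rw [e0, sub_zero, e1] at hb
  have hrd : √((2 * C₁ * η ^ 2 * √(d : ℝ)) ^ 2 + (C₁ * η ^ 2) ^ 2 * d + (C₁ * η ^ 2) ^ 2) ≤
      3 * C₁ * η ^ 2 * (√(d : ℝ) + 1) := by
    refine (Real.sqrt_le_left (by positivity)).2 ?_
    have h2 : (√(d : ℝ)) ^ 2 = d := sq_sqrt (Nat.cast_nonneg d)
    simp only [mul_pow]
    rw [h2]
    nlinarith [mul_nonneg (mul_nonneg (sq_nonneg C₁) (pow_nonneg hη 4)) (sqrt_nonneg (d : ℝ)),
      mul_nonneg (mul_nonneg (sq_nonneg C₁) (pow_nonneg hη 4)) (Nat.cast_nonneg (α := ℝ) d),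
      mul_nonneg (sq_nonneg C₁) (pow_nonneg hη 4), h2]
  refine hb.trans ((mul_le_mul (mul_le_mul_of_nonneg_left hrd hC₂)
    ((Real.sqrt_le_sqrt e2).trans_eq (sqrt_sq hη)) (sqrt_nonneg _) (by positivity)).trans ?_)
  nlinarith [mul_nonneg (mul_nonneg hC₁ hC₂) (mul_nonneg (sq_nonneg η) (sub_nonneg.2
    (hη'.trans (by norm_num : (1 : ℝ) / 100 ≤ 1))))]

end Vale.Agent.P347.Quarter.MeanPt
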